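import Crest.Agent.X212.Cg28.Defs
import Crest.Agent.X212.Rod53.Sym

/-!
# X212 / Cv53 (helper53): the cyclic cover of a rod manifold, `cvStmt : Cg28.CvStmt`
-/

set_option autoImplicit false
set_option linter.unusedSectionVars false

open Set Filter Topology Function
open scoped ContDiff Manifold
open Crest.Agent.X212.Rod53 Crest.Agent.X212.Orx52 Crest.Agent.X212.Cyl58 Crest.Agent.X212.Cg28
open Crest.Agent.X212.Glue52

noncomputable section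

namespace Crest.Agent.X212.Cv53

theorem ncard_roots {p : ℕ} (hp : 0 < p) : {μ : Circle | μ ^ p = 1}.ncard = p := by
  have : NeZero p := ⟨hp.ne'⟩
  rw [← Nat.card_coe_set_eq]
  refine (Nat.card_congr ((toUnits.toEquiv.subtypeEquiv fun μ => ?_).trans
    (rootsOfUnityCircleEquiv p).toEquiv)).trans (Complex.card_rootsOfUnity p)
  exact (mem_rootsOfUnity' p (toUnits μ)).symm

theorem v_lo {L : ℕ} (c : Ch L) {t : ℝ} (h : t < 2) : c.v t = c.a 1 := by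
  have k : ⌊t⌋ ≤ 1 := Int.le_of_lt_add_one (Int.floor_lt.2 (by exact_mod_cast h))
  rw [Ch.v, wd, c.lo _ k, c.lo _ (by omega), if_neg fun e => e.2 (PM.refl _)]

theorem v_hi {L : ℕ} (c : Ch L) {t : ℝ} (h : (L : ℝ) - 1 < t) : c.v t = c.a L := by
  have k : (L : ℤ) - 1 ≤ ⌊t⌋ := Int.le_floor.2 (by push_cast; exact h.le)
  have k1 : (c.n : ℤ) + 2 ≤ L := by exact_mod_cast c.le
  rw [Ch.v, wd, c.hi ⌊t⌋ (by omega), c.a_L]
  refine if_neg fun e => e.2 ?_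
  have : (L : ℤ) - 1 < ⌊t⌋ := by
    rw [e.1] at h
    exact_mod_cast h
  rw [c.hi _ (by omega)]
  exact PM.refl _

variable {B' B : Bs} {p : ℕ} {π : B'.N → B.N} (h : Br B' B p π)
include h

theorem maps : MapsTo π B'.T.Ex B.T.Ex := fun q hq => by
  by_cases e : q ∈ range B'.T.τ
  · obtain ⟨w, rfl⟩ := e
    rw [h.tube]
    exact B.T.τ_mem.2 (gl_ne.2 (B'.T.τ_mem.1 hq))
  · exact B.T.mem_Ex_of (h.far q e)

theorem tc (hp : 0 < p) : TC B'.T B.T π (0, p) (1, 0) :=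
  ⟨by simpa [dt] using hp.ne', h.ld, maps h, fun w _ => h.tube w, fun y _ => h.far y⟩

omit h in
open Classical in
variable (π) in
/-- the deck transformation of the exterior -/
def D (μ : Circle) (q : B'.N) : B'.N :=
  if k : ∃ q', q' ∈ B'.T.Ex ∧ π q' = π q ∧ B'.θ q' = μ * B'.θ q then k.choose else q

variable {μ ν : Circle}

theorem ex_D (hμ : μ ^ p = 1) {q : B'.N} (hq : q ∈ B'.T.Ex) :
    ∃! q', q' ∈ B'.T.Ex ∧ π q' = π q ∧ B'.θ q' = μ * B'.θ q :=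
  h.fib _ (maps h hq) _ (by rw [mul_pow, hμ, one_mul, h.ang q hq])

theorem D_spec (hμ : μ ^ p = 1) {q : B'.N} (hq : q ∈ B'.T.Ex) :
    D π μ q ∈ B'.T.Ex ∧ π (D π μ q) = π q ∧ B'.θ (D π μ q) = μ * B'.θ q := by
  rw [D, dif_pos (ex_D h hμ hq).exists]
  exact (ex_D h hμ hq).exists.choose_spec

theorem D_eq (hμ : μ ^ p = 1) {q q' : B'.N} (hq : q ∈ B'.T.Ex) (h1 : q' ∈ B'.T.Ex) (h2 : π q' = π q)
    (h3 : B'.θ q' = μ * B'.θ q) : D π μ q = q' := (ex_D h hμ hq).unique (D_spec h hμ hq) ⟨h1, h2, h3⟩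

theorem ld_D (hp : 0 < p) (hμ : μ ^ p = 1) {q : B'.N} (hq : q ∈ B'.T.Ex) :
    IsLocalDiffeomorphAt (𝓡 3) (𝓡 3) ∞ (D π μ) q := by
  obtain ⟨k1, k2, k3⟩ := D_spec h hμ hq
  obtain ⟨φ, h1, h2⟩ := h.ld _ k1
  have h3 : π q ∈ φ.target := k2 ▸ h2 h1 ▸ φ.map_source h1
  have h4 : φ.symm (π q) = D π μ q := by rw [← k2, h2 h1]; exact φ.left_inv h1
  have h5 := (h.ld q hq).comp _ _ (ld_pd φ.symm h3)
  have c1 := h5.contMDiffAt.continuousAt
  have c2 : ContinuousAt (fun y => B'.θ (φ.symm (π y)) / (μ * B'.θ y)) q :=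
    ((B'.sm _ k1).continuousAt.comp_of_eq c1 h4).div' (continuousAt_const.mul (B'.sm _ hq).continuousAt)
  have f : ({u : Circle | u ^ (p : ℤ) = 1} \ {1}).Finite := (finite_pow (by exact_mod_cast hp.ne')).sdiff
  refine Glue52.ld_congr h5 ?_
  filter_upwards [B'.T.isOpen_Ex.mem_nhds hq,
    (h.ld q hq).contMDiffAt.continuousAt.preimage_mem_nhds (φ.open_target.mem_nhds h3),
    c1.preimage_mem_nhds (B'.T.isOpen_Ex.mem_nhds (show φ.symm (π q) ∈ _ from h4.symm ▸ k1)),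
    c2.preimage_mem_nhds (f.isClosed.isOpen_compl.mem_nhds fun e => e.2 (by
      show _ / _ = _
      rw [h4, k3, div_self']))] with y y1 y2 y3 y4
  have e : π (φ.symm (π y)) = π y := (h2 (φ.map_target y2)).trans (φ.right_inv y2)
  refine D_eq h hμ y1 y3 e (div_eq_one.1 (by_contra fun k => y4 ⟨?_, k⟩))
  show (_ / _) ^ (p : ℤ) = 1
  rw [zpow_natCast, div_pow, mul_pow, hμ, one_mul, ← h.ang y y1]
  exact div_eq_one.2 ((h.ang _ y3).symm.trans (congrArg _ e))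

theorem tt (hp : 0 < p) (hμ : μ ^ p = 1) : TT B'.T B'.T (D π μ) 1 μ :=
  ⟨fun _ => ld_D h hp hμ, fun _ hq => (D_spec h hμ hq).1, fun w hw => by
    refine D_eq h hμ (B'.T.τ_mem.2 hw) (B'.T.τ_mem.2 (trn_ne.2 hw)) ?_ ?_
    · rw [h.tube, h.tube, gl_trn _ _ _ _ hw]
      simp [hμ, trn_one]
    · rw [B'.θτ _ (trn_ne.2 hw), B'.θτ _ hw, mul_comm, ← dir_mul_circle hw, mul_comm]
      rfl⟩

omit h in
theorem root_unique {q : ℤ} {b : Z2} (hu : Uni (q, (p : ℤ)) b) {σ : Circle} (hσ : σ ^ p = 1) :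
    ∃! μ : Circle, μ ^ p = 1 ∧ μ ^ q = σ := by
  have k := hu.sq
  set d := dt (q, (p : ℤ)) b with hd
  have k1 : ∀ μ : Circle, μ ^ p = 1 → (μ ^ q) ^ (b.2 * d) = μ := fun μ hμ => by
    rw [← zpow_mul, show q * (b.2 * d) = 1 + p * (b.1 * d) by rw [← k, hd, dt]; ring, zpow_add, zpow_mul,
      zpow_natCast, hμ, one_zpow, zpow_one, mul_one]
  refine ⟨σ ^ (b.2 * d), ⟨by rw [← zpow_natCast, zpow_comm, zpow_natCast, hσ, one_zpow],
    by rw [zpow_comm, k1 σ hσ]⟩, fun μ hμ => by rw [← hμ.2, k1 μ hμ.1]⟩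

theorem cv (hp : 0 < p) {L : ℕ} (c' c : Ch L) {q₀ q₁ : ℤ} (e0 : c.a 1 = (q₀, (p : ℤ))) (e1 : c.a L = (q₁, (p : ℤ)))
    (e0' : c'.a 1 = (q₀, 1)) (e1' : c'.a L = (q₁, 1)) :
    Cv c' c p π (fg B'.T B.T π (0, p) (1, 0) c'.v c.v) fun μ => ft B'.T B'.T (D π μ) 1 μ c'.v := by
  have t := tc h hp
  have sl : ∀ s : ℝ, s < 2 ∨ (L : ℝ) - 1 < s → ∃ q : ℤ, c'.v s = (q, 1) ∧ c.v s = (q, (p : ℤ)) ∧
      s ∈ Jr c'.v (q, 1) ∧ ∃ b, Uni (q, (p : ℤ)) b := by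
    rintro s (hs | hs)
    · exact ⟨q₀, (v_lo c' hs).trans e0', (v_lo c hs).trans e0, e0' ▸ c'.lo_Jr hs, e0 ▸ c.isWd.prim 1⟩
    · refine ⟨q₁, (v_hi c' hs).trans e1', (v_hi c hs).trans e1, e1' ▸ c'.hi_Jr ?_, e1 ▸ c.isWd.prim L⟩
      have : (c'.n : ℝ) + 2 ≤ L := by exact_mod_cast c'.le
      exact lt_of_le_of_lt (by linarith) hs
  have ag : ∀ x ∈ B'.A c', x ∈ B'.T.agG c'.v c.v (0, p) (1, 0) := fun x hx => hx.imp_right fun k =>
    interior_maximal (t := {s | s < 2 ∨ (L : ℝ) - 1 < s}) (fun s hs => by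
      obtain ⟨q, k1, k2, -⟩ := sl s hs
      show c.v s = _
      rw [k1, k2]
      simp [ac]) (isOpen_Iio.union isOpen_Ioi) k
  have nf := fun x hx => t.nf_fg c.loc (ag x hx)
  have dp : ∀ s : Circle, s ^ (-dt ((0 : ℤ), (p : ℤ)) (1, 0)) = s ^ p := fun s => by simp [dt]
  have ch : ∀ (q : ℤ) (μ : Circle), chr (q, 1) 1 μ = μ ^ q := fun q μ => by simp [chr]
  have mem : ∀ μ, μ ^ p = 1 → ∀ x ∈ B'.A c', ft B'.T B'.T (D π μ) 1 μ c'.v x ∈ B'.A c' := fun μ hμ x hx =>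
    hx.imp ((tt h hp hμ).eta_ft x).2 fun k => by rw [Bs.tm, (tt h hp hμ).time_ft]; exact k
  have pd : ∀ μ, μ ^ p = 1 → ∀ x ∈ B'.A c', fg B'.T B.T π (0, p) (1, 0) c'.v c.v (ft B'.T B'.T (D π μ) 1 μ c'.v x) =
      fg B'.T B.T π (0, p) (1, 0) c'.v c.v x := fun μ hμ x hx => by
    rw [fg, fg, (tt h hp hμ).nf_ft]
    rcases B'.T.nf_cases x with ⟨y, hy, -, e⟩ | ⟨k, s, e⟩ <;> rw [e]
    · exact congrArg (fun z => invFun _ (Sum.inl (z, _))) (D_spec h hμ hy).2.1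
    · obtain ⟨q, k1, -⟩ := sl _ (hx.resolve_left k)
      simp only [nfG, nfT, Sum.map_inr, Prod.map_apply, dp, k1, ch, mul_pow]
      rw [← zpow_natCast (μ ^ q), zpow_comm, zpow_natCast, hμ, one_zpow, mul_one]
  have fib : ∀ x ∈ B'.A c', ∀ y ∈ B'.A c', fg B'.T B.T π (0, p) (1, 0) c'.v c.v x =
      fg B'.T B.T π (0, p) (1, 0) c'.v c.v y → ∃! μ, μ ^ p = 1 ∧ ft B'.T B'.T (D π μ) 1 μ c'.v x = y := by
    intro x hx y hy e
    have k := (nf x hx).symm.trans (e ▸ nf y hy)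
    have eq : ∀ μ, μ ^ p = 1 → (ft B'.T B'.T (D π μ) 1 μ c'.v x = y ↔
        nfT (D π μ) 1 μ c'.v (B'.T.nf c'.v x) = B'.T.nf c'.v y) := fun μ hμ => by
      rw [← (tt h hp hμ).nf_ft, (B'.T.nf_injective _).eq_iff]
    refine (existsUnique_congr fun μ => and_congr_right (eq μ)).2 ?_
    rcases B'.T.nf_cases x with ⟨z, hz, -, e1⟩ | ⟨m, s, e1⟩ <;>
      rcases B'.T.nf_cases y with ⟨z', hz', -, e2⟩ | ⟨-, s', e2⟩ <;> rw [e1, e2] at k ⊢
    · obtain ⟨k1, k2⟩ := Prod.ext_iff.1 (Sum.inl_injective k)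
      have hμ : (B'.θ z' / B'.θ z) ^ p = 1 := by
        rw [div_pow, ← h.ang z hz, ← h.ang z' hz']
        exact div_eq_one.2 (congrArg _ k1.symm)
      refine ⟨_, ⟨hμ, congrArg Sum.inl (Prod.ext (D_eq h hμ hz hz' k1.symm (div_mul_cancel _ _).symm) k2)⟩, ?_⟩
      rintro μ ⟨h1, h2⟩
      rw [← show D π μ z = z' from congrArg Prod.fst (Sum.inl_injective h2), (D_spec h h1 hz).2.2,
        mul_div_cancel_right]
    · cases k
    · cases k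
    · obtain ⟨k1, k2⟩ := Prod.ext_iff.1 (Sum.inr_injective k)
      obtain ⟨q, k3, -, -, b, hb⟩ := sl _ (hx.resolve_left m)
      refine (existsUnique_congr fun μ => and_congr_right fun _ => ?_).1 (root_unique hb (σ := s' / s)
        (by rw [div_pow, ← dp, ← dp]; exact div_eq_one.2 k2.symm))
      simp only [nfT, Sum.map_inr, k3, ch, Sum.inr.injEq, Prod.mk.injEq]
      rw [eq_div_iff_mul_eq', mul_comm]
      exact (and_iff_right k1).symm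
  have sur : ∀ y ∈ B.A c, ∃ x ∈ B'.A c', fg B'.T B.T π (0, p) (1, 0) c'.v c.v x = y := fun y hy => by
    rcases B.T.nf_cases y with ⟨z, hz, e, -⟩ | ⟨m, s, e⟩
    · obtain ⟨u, hu⟩ := zpow_surj (n := p) (by exact_mod_cast hp.ne') (B.θ z)
      obtain ⟨q, ⟨k1, rfl, -⟩, -⟩ := h.fib z hz u (by rwa [← zpow_natCast])
      exact ⟨_, Or.inl (B'.T.eta_ext_lt (q := (q, B.T.time c.v y)) k1), (t.fg_ext k1).trans e⟩
    · obtain ⟨q, k1, -, k2, -⟩ := sl _ (hy.resolve_left m)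
      obtain ⟨u, hu⟩ := zpow_surj (n := p) (by exact_mod_cast hp.ne') s
      have U : Uni (q, 1) (-1, 0) := Or.inl (by simp [dt])
      have m1 : ((u, (0 : ℂ)), B.T.time c.v y) ∈ Ur c'.v (q, 1) := Or.inr k2
      have m2 : B'.T.rod c'.v U ((u, 0), B.T.time c.v y) ∈ B'.A c' :=
        Or.inr (by rw [Bs.tm, B'.T.time_rod U m1]; exact hy.resolve_left m)
      refine ⟨_, m2, B.T.nf_injective _ ?_⟩
      rw [nf _ m2, B'.T.nf_rod U m1, B'.T.Φr_zero rfl, e, k1]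
      simp only [nfG, Sum.map_inr, Prod.map_apply, dp, id]
      rw [← hu, zpow_natCast]
      simp [dt]
  refine ⟨fun x hx => t.ld_fg c.loc (ag x hx), fun x hx => t.time_fg c.loc (ag x hx),
    fun x hx _ k d => t.hf_fg c.loc k d (ag x hx), fun q hq s => t.fg_ext hq, ?_, fun y hy => ?_,
    fun μ hμ => (tt h hp hμ).ld_ft.contMDiff.continuous.continuousOn, fun μ hμ x hx => ⟨mem μ hμ x hx, pd μ hμ x hx⟩,
    fun μ ν hμ hν x hx => B'.T.nf_injective _ ?_, fib, fun μ hμ q hq s =>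
      ⟨_, (D_spec h hμ hq).1, (tt h hp hμ).ft_ext hq, (D_spec h hμ hq).2⟩⟩
  · refine (B'.ox c').pos_of (B'.isOpen_A c') (fun x hx => t.ld_fg c.loc (ag x hx)) (B.ox c).ori
      (Pos.mono ?_ inter_subset_left)
    exact ((B.ox c).ext.comp (h.pos.prodMap pos_R h.ld fun z _ => Glue52.ld_id z) (fun _ => ldp (B.T.ext c.v))
      (fun z hz => ld_prodMap_at (h.ld z.1 hz.1) (Glue52.ld_id z.2)) fun z hz => ⟨maps h hz.1, trivial⟩).congr
      (B'.T.isOpen_Ex.prod isOpen_univ) fun z hz => t.fg_ext hz.1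
  · obtain ⟨x, hx, rfl⟩ := sur y hy
    refine Eq.trans (Eq.symm (ncard_congr (fun μ _ => ft B'.T B'.T (D π μ) 1 μ c'.v x)
      (fun μ hμ => mem_inter (mem μ hμ x hx) (pd μ hμ x hx))
      (fun μ ν hμ hν e => (fib x hx _ (mem ν hν x hx) (pd ν hν x hx).symm).unique ⟨hμ, e⟩ ⟨hν, rfl⟩)
      fun z hz => ?_)) (ncard_roots hp)
    obtain ⟨μ, k, -⟩ := fib x hx z hz.1 hz.2.symm
    exact ⟨μ, k.1, k.2⟩
  · have hm : (μ * ν) ^ p = 1 := by rw [mul_pow, hμ, hν, one_mul]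
    rw [(tt h hp hm).nf_ft, (tt h hp hμ).nf_ft, (tt h hp hν).nf_ft]
    rcases B'.T.nf_cases x with ⟨y, hy, -, e⟩ | ⟨k, s, e⟩ <;> rw [e]
    · have k1 := D_spec h hν hy
      have k2 := D_spec h hμ k1.1
      exact congrArg (fun z => Sum.inl (z, _)) (D_eq h hm hy k2.1 (k2.2.1.trans k1.2.1)
        (by rw [k2.2.2, k1.2.2, mul_assoc]))
    · simp only [nfT, Sum.map_inr, chr, one_zpow, mul_one, mul_zpow]
      rw [mul_comm (μ ^ _), mul_assoc]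

omit h in
theorem cvStmt : CvStmt := fun _ _ _ _ hp h _ c' c _ _ e0 e1 e0' e1' => ⟨_, _, cv h hp c' c e0 e1 e0' e1'⟩

end Crest.Agent.X212.Cv53
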